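import Vale.Agent.P092.TX.H684.Van
import Vale.Agent.P092.H574.Cov

/-!
P092, Team C, all amplifications: copy for the picture `PicX` (existential form of `inv`).
P092, Team C, [C-LINE], step (2), unconditional form.
-/

set_option linter.all false

open Matrix Topology Projectivization ContinuousLinearMap TopologicalSpace
open scoped LinearAlgebra.Projectivization Pointwise

namespace Vale.Agent.P092.TX.H684

open Vale.Agent.P092.H684

open Vale.Agent.P092.RC Vale.Agent.P092.H574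

/-- [C-LINE] (2), unconditional -/
theorem vanish_all {k : Type} [NontriviallyNormedField k] [ProperSpace k] [IsUltrametricDist k]
    [CharZero k]
    {Γ K : Type} [Group Γ] [NormedAddCommGroup K] [InnerProductSpace ℂ K] [CompleteSpace K]
    {π : GG k 2 →* (K →L[ℂ] K)} {lam : Γ →* (K →L[ℂ] K)} {W W' : Set (K →L[ℂ] K)} {Ω : K}
    {q : Γ →* GG k 2} {E : Clopens (YY k 2) → (K →L[ℂ] K)} {δ : GG k 2 → PG k 2}
    {Q : Set (YY k 2 × PG k 2) → (K →L[ℂ] K)} (hq : Emb q)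
    (hp : PicX π lam W Ω) (hWW : W ⊆ W') (hz : ZFam π lam W' Ω q cc y0 E δ Q)
    {d : P1 k → P1 k}
    (hd : ∀ (a : k) (ha : a ≠ 0), ‖a‖ < 1 → ∀ h : GL (Fin 2) k, Two δ d (h • e0)
      (jj (h * dg a ha * h⁻¹)) (jj (h * un 1 * h⁻¹)))
    {g : GG k 2} (hg : g • (y0 : YY k 2) ≠ y0) {C C' : Set (YY k 2 × PG k 2)} (hC : CO C)
    (hC' : CO C') (hCD : C ×ˢ C' ⊆ H574.DD k)
    (hne : ∀ x ∈ C ×ˢ C', Phi x ≠ (d (dir (y0 : YY k 2) (g • y0)),
      d (dir (y0 : YY k 2) (g⁻¹ • y0)))) :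
    π g * Q C' * π g⁻¹ * Q C = 0 := by
  have hG : Geo (cc : GG k 2 → YY k 2 → PG k 2) y0 := H200.Coc.geoStmt k 2 (by norm_num)
  obtain ⟨S, hS, hSq⟩ := cocpt q hq
  obtain ⟨J, _, KK, KK', hK, hK', hKD, hcov⟩ := exists_cov hG co_z q hS (fun g => by
    obtain ⟨γ, hγ⟩ := hSq g
    refine ⟨γ⁻¹, q γ * g, hγ, ?_⟩
    rw [map_inv, inv_mul_cancel_left])
  exact vanish hG hq hp hWW hz KK KK' hK hK' hKD hcov hd hg hC hC' hCD hne

end Vale.Agent.P092.TX.H684
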