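import Vale.Agent.P092.TX.H684.LineA
import Vale.Agent.P092.H684.Wan
import Vale.Agent.P092.H574.Mov2

/-!
P092, Team C, all amplifications: copy for the picture `PicX` (existential form of `inv`).
P092, Team C, [C-LINE], step (2), assembly: the product of `Q(C)` and `π g Q(C') π g⁻¹` vanishes
when the invariant `Φ` avoids one value on `C × C'`.
-/

set_option linter.all false

open Matrix Topology Projectivization ContinuousLinearMap TopologicalSpace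
open scoped LinearAlgebra.Projectivization Pointwise

namespace Vale.Agent.P092.TX.H684

open Vale.Agent.P092.H684

open Vale.Agent.P092.RC Vale.Agent.P092.H574
open Vale.Agent.P092.H575 (cg cg_isOpen cg_isCompact cg_basis)

section basis

variable {k : Type} [NontriviallyNormedField k] [ProperSpace k] [IsUltrametricDist k]

/-- compact open neighbourhoods in `PGL₂` -/
theorem co_pg (x : PG k 2) {O : Set (PG k 2)} (hO : O ∈ 𝓝 x) :
    ∃ A : Set (PG k 2), CO A ∧ x ∈ A ∧ A ⊆ O := by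
  have h1 : Continuous fun u : GL (Fin 2) k => x * mkG u :=
    continuous_const.mul QuotientGroup.continuous_mk
  have h2 : (fun u : GL (Fin 2) k => x * mkG u) ⁻¹' O ∈ 𝓝 (1 : GL (Fin 2) k) := by
    refine h1.continuousAt.preimage_mem_nhds ?_
    rw [map_one, mul_one]
    exact hO
  obtain ⟨r, hr, hb⟩ := cg_basis h2
  refine ⟨(fun y => x * y) '' (mkG '' (cg k (Fin 2) r hr.le : Set (GL (Fin 2) k))), ⟨?_, ?_⟩,
    ?_, ?_⟩
  · exact ((cg_isCompact hr).image QuotientGroup.continuous_mk).image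
      (continuous_const.mul continuous_id)
  · exact (Homeomorph.mulLeft x).isOpenMap _ (QuotientGroup.isOpenMap_coe _ (cg_isOpen hr))
  · exact ⟨1, ⟨1, Subgroup.one_mem _, map_one _⟩, mul_one x⟩
  · rintro _ ⟨_, ⟨u, hu, rfl⟩, rfl⟩
    exact hb r hr.le le_rfl hu

/-- compact open neighbourhoods in `Z` -/
theorem co_z (z : YY k 2 × PG k 2) (O : Set (YY k 2 × PG k 2)) (hO : O ∈ 𝓝 z) :
    ∃ A : Set (YY k 2 × PG k 2), CO A ∧ z ∈ A ∧ A ⊆ O := by
  rw [show z = (z.1, z.2) from rfl, mem_nhds_prod_iff] at hO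
  obtain ⟨U, hU, V, hV, hUV⟩ := hO
  obtain ⟨U', hU'U, hU', hzU'⟩ := mem_nhds_iff.1 hU
  obtain ⟨A, hA, hzA, hAU⟩ := compact_exists_isClopen_in_isOpen hU' hzU'
  obtain ⟨B, hB, hzB, hBV⟩ := co_pg z.2 hV
  exact ⟨A ×ˢ B, ⟨hA.isClosed.isCompact.prod hB.1, hA.isOpen.prod hB.2⟩, ⟨hzA, hzB⟩,
    (Set.prod_mono (hAU.trans hU'U) hBV).trans hUV⟩

end basis

section van

variable {k : Type} [NontriviallyNormedField k] [ProperSpace k] [IsUltrametricDist k]
  {Γ K : Type} [Group Γ] [NormedAddCommGroup K] [InnerProductSpace ℂ K] [CompleteSpace K]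
  {π : GG k 2 →* (K →L[ℂ] K)} {lam : Γ →* (K →L[ℂ] K)} {W W' : Set (K →L[ℂ] K)} {Ω : K}
  {q : Γ →* GG k 2} {E : Clopens (YY k 2) → (K →L[ℂ] K)} {δ : GG k 2 → PG k 2}
  {Q : Set (YY k 2 × PG k 2) → (K →L[ℂ] K)}

/-- [C-LINE] (2) -/
theorem vanish (hG : Geo (cc : GG k 2 → YY k 2 → PG k 2) y0) (hq : Emb q)
    (hp : PicX π lam W Ω) (hWW : W ⊆ W') (hz : ZFam π lam W' Ω q cc y0 E δ Q)
    {J : Type} [Fintype J] (KK KK' : J → Set (YY k 2 × PG k 2)) (hK : ∀ j, CO (KK j))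
    (hK' : ∀ j, CO (KK' j)) (hKD : ∀ j, KK j ×ˢ KK' j ⊆ H574.DD k)
    (hcov : ∀ x ∈ H574.DD k, ∃ (γ : Γ) (j : J),
      (zact cc (q γ) x.1, zact cc (q γ) x.2) ∈ KK j ×ˢ KK' j)
    {d : P1 k → P1 k}
    (hd : ∀ (a : k) (ha : a ≠ 0), ‖a‖ < 1 → ∀ h : GL (Fin 2) k, Two δ d (h • e0)
      (jj (h * dg a ha * h⁻¹)) (jj (h * un 1 * h⁻¹)))
    {g : GG k 2} (hg : g • (y0 : YY k 2) ≠ y0) {C C' : Set (YY k 2 × PG k 2)} (hC : CO C)
    (hC' : CO C') (hCD : C ×ˢ C' ⊆ H574.DD k)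
    (hne : ∀ x ∈ C ×ˢ C', Phi x ≠ (d (dir (y0 : YY k 2) (g • y0)),
      d (dir (y0 : YY k 2) (g⁻¹ • y0)))) :
    π g * Q C' * π g⁻¹ * Q C = 0 := by
  haveI : T2Space (PG k 2) := H200.Coc.t2_pg
  letI aG := zma hG
  letI : MulAction Γ (YY k 2 × PG k 2) := MulAction.compHom _ q
  have hact : ∀ (γ : Γ) (z : YY k 2 × PG k 2), γ • z = zact cc (q γ) z := fun γ z => rfl
  haveI : ContinuousConstSMul Γ (YY k 2 × PG k 2) := ⟨fun γ =>
    (zact_cont hG).comp (continuous_const.prodMk continuous_id)⟩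
  have himg : ∀ (γ : Γ) (C : Set (YY k 2 × PG k 2)), γ • C = zact cc (q γ) '' C :=
    fun γ C => rfl
  have hMp : ∀ p : GG k 2, p • (y0 : YY k 2) = y0 → p • g • (y0 : YY k 2) = g • y0 →
      ∀ C C' : Set (YY k 2 × PG k 2), CO C → CO C' → C ×ˢ C' ⊆ H574.DD k →
      MM π lam Ω Q g ((fun z => zr z (δ p)⁻¹) '' C) ((fun z => zr z (δ (g⁻¹ * p * g))⁻¹) '' C') =
        MM π lam Ω Q g C C' :=
    fun p h1 h2 C C' hC hC' _ => MM_par hp hWW hz g p h1 h2 hC hC'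
  have hM : MM π lam Ω Q g C C' = 0 := by
    refine rec_two (Γ := Γ) (D := H574.DD k) (biM hp hWW hz hg) DD_open co_z co_z ?_ KK KK' hK
      hK' hKD hcov ?_ Phi (Phi_cont hG) ?_ (d (dir (y0 : YY k 2) (g • y0)))
      (d (dir (y0 : YY k 2) (g⁻¹ • y0))) ?_ ?_ hC hC' hCD hne
    · intro γ C C' hC hC' _
      rw [himg, himg]
      exact MM_lam hp hz g γ hC hC'
    · exact wan hG q hq
    · intro γ x hx
      exact Phi_inv hG (q γ) hx
    · exact movL hG.mul hz.δmul hz.δker hd hact hg hMp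
    · exact movR hG.mul hz.δmul hz.δker hd hact hg hMp
  exact eq_zero_of_MM hp hWW hz hg hC hC' hCD hM

end van

end Vale.Agent.P092.TX.H684
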